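import Vale.Agent.P297.H521.Z2.NV5
import Vale.Agent.P297.H278.Z2.InvA

/-!
General numerical Godeaux surfaces with torsion of order two: the invariants of the quartics of the
nodes.
-/

set_option linter.unusedSectionVars false
set_option linter.unusedVariables false

open Polynomial

namespace Vale.Agent.P297.Z2

open Vale.Agent.P297 Vale.Agent.P297.H160.Z2Irr Vale.Agent.P297.G4 NV

/-- The dictionary of the node. -/
theorem IsNode.nodeTD {N : Type} [Field N] [Algebra ℂ N] {P : Par} {l al be : N}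
    (h : IsNode P l al be) : H278.NodeTD (algebraMap ℂ N P.P0) (algebraMap ℂ N P.P1)
      (algebraMap ℂ N P.P2) (algebraMap ℂ N P.Q0) (algebraMap ℂ N P.Q1) (algebraMap ℂ N P.u)
      (algebraMap ℂ N P.v) (algebraMap ℂ N P.m) (algebraMap ℂ N P.n) (ntd P l al be) := by
  have hr := h.rl
  refine ⟨h.sub, h.sub, hr.hA, hr.hC, hr.pn, hr.rn, hr.kp, hr.kr, hr.w0, ?_⟩
  linear_combination hr.nod

/-- **The invariants.** -/
theorem NonDeg.exists_invPQ {P : Par} (h : NonDeg P) : ∃ p q : ℂ[X], InvPQ P p q := by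
  obtain ⟨p, q, hp, hq, H⟩ := H278.inv_poly P.P0 P.P1 P.P2 P.Q0 P.Q1 P.u P.v P.m P.n
  exact ⟨p, q, h.invPQ hp hq (fun N _ _ l al be hn => (H N (ntd P l al be) hn.nodeTD).1)
    (fun N _ _ l al be hn => (H N (ntd P l al be) hn.nodeTD).2)⟩

end Vale.Agent.P297.Z2
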