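import Vale.Agent.P297.H521.Z2.NV3

/-!
General numerical Godeaux surfaces with torsion of order two: the conditions on the parameters hold
outside a hypersurface (4): the invariants of the quartics of the nodes.
-/

set_option linter.unusedSectionVars false
set_option linter.unusedVariables false

open Polynomial

namespace Vale.Agent.P297.Z2.NV

open Vale.Agent.P297 Vale.Agent.P297.H160.Z2Irr Vale.Agent.P297.G4

/-- the denominator of a node -/
def Dt {R : Type} [CommRing R] (w : Fin 9 → R) (t : R) : R :=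
  (1 - t) * (w 0 * t ^ 2 - w 1 * t + w 2) + t * (w 3 * t - w 4)

theorem map_Dt {R S : Type} [CommRing R] [CommRing S] (σ : R →+* S) (w : Fin 9 → R) (t : R) :
    σ (Dt w t) = Dt (fun j => σ (w j)) (σ t) := by
  simp only [Dt, map_add, map_sub, map_mul, map_pow, map_one]

/-- The node over a value of `t`. -/
theorem isNode_t {w : Fin 9 → ℂ} {t i : ℂ} (ht : t ≠ 0) (hi : Dt w t * i = 1)
    (hq : w 0 * t ^ 2 - w 1 * t + w 2 ≠ 0) :
    IsNode (par w) (t * (w 3 * t - w 4) * i) (t * (w 0 * t ^ 2 - w 1 * t + w 2) * i)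
      ((w 0 * t ^ 2 - w 1 * t + w 2) * i) := by
  have h0 : i ≠ 0 := right_ne_zero_of_mul (by rw [hi]; exact one_ne_zero)
  refine ⟨mul_ne_zero (mul_ne_zero ht hq) h0, mul_ne_zero hq h0, ?_, ?_⟩
  · unfold Dt at hi
    linear_combination hi
  · simp only [par, Algebra.algebraMap_self, RingHom.id_apply]
    ring

theorem ntd_t {w : Fin 9 → ℂ} {t i : ℂ} (ht : t ≠ 0) (hi : Dt w t * i = 1)
    (hq : w 0 * t ^ 2 - w 1 * t + w 2 ≠ 0) :
    ntd (par w) (t * (w 3 * t - w 4) * i) (t * (w 0 * t ^ 2 - w 1 * t + w 2) * i)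
      ((w 0 * t ^ 2 - w 1 * t + w 2) * i) = tdt w t (1 / t) i := by
  have h0 : i ≠ 0 := right_ne_zero_of_mul (by rw [hi]; exact one_ne_zero)
  unfold ntd tdt
  simp only [par, Algebra.algebraMap_self, RingHom.id_apply]
  have hA : (w 0 * t ^ 2 - w 1 * t + w 2) * i * w 2 / (t * (w 0 * t ^ 2 - w 1 * t + w 2) * i) =
      w 2 * (1 / t) := by
    generalize w 0 * t ^ 2 - w 1 * t + w 2 = q at hq
    field_simp
  have hC : t * (w 0 * t ^ 2 - w 1 * t + w 2) * i * w 0 / ((w 0 * t ^ 2 - w 1 * t + w 2) * i) =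
      t * w 0 := by
    generalize w 0 * t ^ 2 - w 1 * t + w 2 = q at hq
    field_simp
  rw [hA, hC]
  congr 1 <;> ring

/-! ### The ring with the denominators -/

/-- the ring of parameters -/
abbrev A9 : Type := MvPolynomial (Fin 9) ℂ

noncomputable def D0 : A9 := Dt MvPolynomial.X 2 * Dt MvPolynomial.X 3

abbrev L9 : Type := Localization.Away D0

noncomputable def xl (j : Fin 9) : L9 := algebraMap A9 L9 (MvPolynomial.X j)

noncomputable def i2 : L9 := algebraMap A9 L9 (Dt MvPolynomial.X 3) * IsLocalization.Away.invSelf D0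

noncomputable def i3 : L9 := algebraMap A9 L9 (Dt MvPolynomial.X 2) * IsLocalization.Away.invSelf D0

noncomputable def cl (z : ℂ) : L9 := algebraMap A9 L9 (MvPolynomial.C z)

noncomputable def td2 : TD L9 := tdt xl 2 (cl (1 / 2)) i2

noncomputable def td3 : TD L9 := tdt xl 3 (cl (1 / 3)) i3

section ev

variable {w : Fin 9 → ℂ} (h : MvPolynomial.eval w D0 ≠ 0)

/-- the value at a point -/
noncomputable def tau : L9 →+* ℂ :=
  IsLocalization.Away.lift D0 (g := MvPolynomial.eval w) (isUnit_iff_ne_zero.2 h)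

theorem tau_algebraMap (a : A9) : tau h (algebraMap A9 L9 a) = MvPolynomial.eval w a :=
  IsLocalization.Away.lift_eq D0 (isUnit_iff_ne_zero.2 h) a

theorem eval_Dt (t : A9) :
    MvPolynomial.eval w (Dt MvPolynomial.X t) = Dt w (MvPolynomial.eval w t) := by
  rw [map_Dt]
  simp only [MvPolynomial.eval_X]

theorem eval_D0 : MvPolynomial.eval w D0 = Dt w 2 * Dt w 3 := by
  unfold D0
  rw [map_mul, eval_Dt, eval_Dt, map_ofNat, map_ofNat]

theorem tau_inv : Dt w 2 * Dt w 3 * tau h (IsLocalization.Away.invSelf D0) = 1 := by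
  rw [← eval_D0, ← tau_algebraMap h, ← map_mul, IsLocalization.Away.mul_invSelf, map_one]

theorem tau_i2 : Dt w 2 * tau h i2 = 1 := by
  unfold i2
  rw [map_mul, tau_algebraMap, eval_Dt, map_ofNat, ← mul_assoc]
  exact tau_inv h

theorem tau_i3 : Dt w 3 * tau h i3 = 1 := by
  unfold i3
  rw [map_mul, tau_algebraMap, eval_Dt, map_ofNat, ← mul_assoc]
  rw [mul_comm (Dt w 3)]
  exact tau_inv h

theorem tau_td2 : tmap (tau h) td2 = tdt w 2 (1 / 2) (tau h i2) := by
  unfold td2
  rw [map_tdt]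
  simp only [xl, cl, tau_algebraMap, MvPolynomial.eval_X, MvPolynomial.eval_C, map_ofNat]

theorem tau_td3 : tmap (tau h) td3 = tdt w 3 (1 / 3) (tau h i3) := by
  unfold td3
  rw [map_tdt]
  simp only [xl, cl, tau_algebraMap, MvPolynomial.eval_X, MvPolynomial.eval_C, map_ofNat]

end ev

theorem D0_mem0 : MvPolynomial.eval mem0 D0 ≠ 0 := by
  rw [eval_D0]
  simp only [Dt, mem0_0, mem0_1, mem0_2, mem0_3, mem0_4]
  norm_num

theorem i2_mem0 : tau D0_mem0 i2 = 1 / 3 := by
  have h := tau_i2 D0_mem0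
  simp only [Dt, mem0_0, mem0_1, mem0_2, mem0_3, mem0_4] at h
  linear_combination h / 3

theorem i3_mem0 : tau D0_mem0 i3 = -1 / 4 := by
  have h := tau_i3 D0_mem0
  simp only [Dt, mem0_0, mem0_1, mem0_2, mem0_3, mem0_4] at h
  linear_combination -h / 4

/-- An expression in the functions with denominators that does not vanish at the member. -/
theorem big_tau (f : L9) (hf : tau D0_mem0 f ≠ 0) :
    Big fun w => ∃ h : MvPolynomial.eval w D0 ≠ 0, tau h f ≠ 0 := by
  obtain ⟨G, hG⟩ := exists_away D0 f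
  have h1 : MvPolynomial.eval mem0 (D0 * G) ≠ 0 := by
    rw [map_mul]
    refine mul_ne_zero D0_mem0 fun h0 => hf ?_
    rw [← hG, tau_algebraMap, h0]
  refine (big_poly (D0 * G) mem0 h1).mono fun w hw => ?_
  rw [map_mul] at hw
  refine ⟨left_ne_zero_of_mul hw, fun h0 => right_ne_zero_of_mul hw ?_⟩
  rw [← hG, tau_algebraMap] at h0
  exact h0

/-- **Two nodes and the values of the invariants.** -/
structure TwoNodes (P : Par) (l al be l' al' be' : ℂ) : Prop where
  node : IsNode P l al be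
  node' : IsNode P l' al' be'
  disc : 4 * qI (ntd P l al be).qc ^ 3 ≠ qJ (ntd P l al be).qc ^ 2
  nt : qI (ntd P l al be).qc ^ 3 * qJ (ntd P l' al' be').qc ^ 2 ≠
    qI (ntd P l' al' be').qc ^ 3 * qJ (ntd P l al be).qc ^ 2

theorem big_inv : Big fun w => ∃ l al be l' al' be' : ℂ, TwoNodes (par w) l al be l' al' be' := by
  have h1 := big_tau (4 * qI td2.qc ^ 3 - qJ td2.qc ^ 2) (by
    rw [map_sub, map_mul, map_pow, map_pow, map_ofNat, ← map_qI, ← map_qJ, tau_td2, i2_mem0,
      qI_two, qJ_two]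
    norm_num)
  have h2 := big_tau (qI td2.qc ^ 3 * qJ td3.qc ^ 2 - qI td3.qc ^ 3 * qJ td2.qc ^ 2) (by
    rw [map_sub, map_mul, map_mul, map_pow, map_pow, map_pow, map_pow, ← map_qI, ← map_qJ,
      ← map_qI, ← map_qJ, tau_td2, tau_td3, i2_mem0, i3_mem0, qI_two, qJ_two, qI_three, qJ_three]
    norm_num)
  have h3 := big_poly (MvPolynomial.X 0 * 2 ^ 2 - MvPolynomial.X 1 * 2 + MvPolynomial.X 2) mem0 (by
    simp only [map_add, map_sub, map_mul, map_pow, map_ofNat, MvPolynomial.eval_X, mem0_0, mem0_1,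
      mem0_2]
    norm_num)
  have h4 := big_poly (MvPolynomial.X 0 * 3 ^ 2 - MvPolynomial.X 1 * 3 + MvPolynomial.X 2) mem0 (by
    simp only [map_add, map_sub, map_mul, map_pow, map_ofNat, MvPolynomial.eval_X, mem0_0, mem0_1,
      mem0_2]
    norm_num)
  refine ((h1.and h2).and (h3.and h4)).mono ?_
  rintro w ⟨⟨⟨hD, k1⟩, ⟨hD', k2⟩⟩, k3, k4⟩
  simp only [map_add, map_sub, map_mul, map_pow, map_ofNat, MvPolynomial.eval_X] at k3 k4
  rw [map_sub, map_mul, map_pow, map_pow, map_ofNat, ← map_qI, ← map_qJ, tau_td2] at k1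
  rw [map_sub, map_mul, map_mul, map_pow, map_pow, map_pow, map_pow, ← map_qI, ← map_qJ,
      ← map_qI, ← map_qJ, tau_td2, tau_td3] at k2
  refine ⟨_, _, _, _, _, _, isNode_t two_ne_zero (tau_i2 hD) k3,
    isNode_t three_ne_zero (tau_i3 hD) k4, ?_, ?_⟩
  · rw [ntd_t two_ne_zero (tau_i2 hD) k3]
    exact sub_ne_zero.1 k1
  · rw [ntd_t two_ne_zero (tau_i2 hD) k3, ntd_t three_ne_zero (tau_i3 hD) k4]
    exact sub_ne_zero.1 k2

/-! ### The consequences for the invariants over the line of `l` -/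

theorem TwoNodes.disc_ne {P : Par} {l al be l' al' be' : ℂ} (T : TwoNodes P l al be l' al' be')
    {p q : ℂ[X]}
    (hI : ∀ l al be : ℂ, IsNode P l al be → qI (ntd P l al be).qc = (al * be) ^ 4 * aeval l p)
    (hJ : ∀ l al be : ℂ, IsNode P l al be → qJ (ntd P l al be).qc = (al * be) ^ 6 * aeval l q) :
    4 * p ^ 3 ≠ q ^ 2 := by
  intro h
  apply T.disc
  rw [hI _ _ _ T.node, hJ _ _ _ T.node]
  have h1 := congrArg (aeval l) h
  simp only [map_mul, map_pow, map_ofNat] at h1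
  linear_combination (al * be) ^ 12 * h1

theorem TwoNodes.nt_ne {P : Par} {l al be l' al' be' : ℂ} (T : TwoNodes P l al be l' al' be')
    {p q : ℂ[X]}
    (hI : ∀ l al be : ℂ, IsNode P l al be → qI (ntd P l al be).qc = (al * be) ^ 4 * aeval l p)
    (hJ : ∀ l al be : ℂ, IsNode P l al be → qJ (ntd P l al be).qc = (al * be) ^ 6 * aeval l q) :
    ∀ α β a b : ℂ, ¬ (p = C α * (C a * X + C b) ^ 4 ∧ q = C β * (C a * X + C b) ^ 6) := by
  rintro α β a b ⟨rfl, rfl⟩
  apply T.nt
  rw [hI _ _ _ T.node, hJ _ _ _ T.node, hI _ _ _ T.node', hJ _ _ _ T.node']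
  simp only [map_mul, map_pow, map_add, aeval_C, aeval_X]
  ring

end Vale.Agent.P297.Z2.NV
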