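import Vale.Agent.P297.H521.Z2.NV4
import Vale.Agent.P297.H10.Z2.TriInst

/-!
General numerical Godeaux surfaces with torsion of order two: all the conditions on the parameters
hold outside a hypersurface.
-/

set_option linter.unusedSectionVars false
set_option linter.unusedVariables false

open Polynomial

namespace Vale.Agent.P297.Z2

open Vale.Agent.P297 Vale.Agent.P297.H160.Z2Irr Vale.Agent.P297.G4 NV

/-- **The conditions on the parameters.** -/
structure NonDeg (P : Par) : Prop where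
  P0 : P.P0 ≠ 0
  P2 : P.P2 ≠ 0
  P02 : P.P0 ≠ P.P2
  Q0 : P.Q0 ≠ 0
  Q1 : P.Q1 ≠ 0
  Q : P.Q0 ≠ P.Q1
  uv : P.u ≠ P.v
  M1 : P.M1 = 0
  R : P.P0 * P.Q1 ^ 2 - P.P1 * P.Q0 * P.Q1 + P.P2 * P.Q0 ^ 2 ≠ 0
  V : (P.u - P.v) * (P.Q0 - 2 * P.v) + P.n - P.v ^ 2 - P.P1 * P.v ≠ 0
  gh : ∀ y : ℂ, (dat P y).h 0 = 0 → (dat P y).g ≠ 0
  two : ∃ l al be l' al' be' : ℂ, TwoNodes P l al be l' al' be'

theorem NonDeg.nc {P : Par} (h : NonDeg P) : NC P := ⟨h.P0, h.P2, h.Q, h.R⟩

theorem NonDeg.invPQ {P : Par} (h : NonDeg P) {p q : ℂ[X]} (hp : p.natDegree ≤ 4)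
    (hq : q.natDegree ≤ 6)
    (hI : ∀ (N : Type) [Field N] [Algebra ℂ N] (l al be : N), IsNode P l al be →
      qI (ntd P l al be).qc = (al * be) ^ 4 * aeval l p)
    (hJ : ∀ (N : Type) [Field N] [Algebra ℂ N] (l al be : N), IsNode P l al be →
      qJ (ntd P l al be).qc = (al * be) ^ 6 * aeval l q) : InvPQ P p q := by
  obtain ⟨l, al, be, l', al', be', T⟩ := h.two
  exact ⟨hp, hq, T.disc_ne (hI ℂ) (hJ ℂ), T.nt_ne (hI ℂ) (hJ ℂ), hI, hJ⟩

namespace NV

/-- **All the conditions hold outside a hypersurface.** -/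
theorem big_nonDeg : Big fun w => NonDeg (par w) := by
  have h0 := big_poly (MvPolynomial.X 0) (fun _ => 1) (by simp)
  have h2 := big_poly (MvPolynomial.X 2) (fun _ => 1) (by simp)
  have h02 := big_poly (MvPolynomial.X 0 - MvPolynomial.X 2) mem0 (by
    simp only [map_sub, MvPolynomial.eval_X, mem0_0, mem0_2]
    norm_num)
  have h3 := big_poly (MvPolynomial.X 3) (fun _ => 1) (by simp)
  have h4 := big_poly (MvPolynomial.X 4) (fun _ => 1) (by simp)
  have h34 := big_poly (MvPolynomial.X 3 - MvPolynomial.X 4) mem0 (by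
    simp only [map_sub, MvPolynomial.eval_X, mem0_3, mem0_4]
    norm_num)
  have h56 := big_poly (MvPolynomial.X 5 - MvPolynomial.X 6) mem0 (by
    simp only [map_sub, MvPolynomial.eval_X, mem0_5, mem0_6]
    norm_num)
  have hR := big_poly (MvPolynomial.X 0 * MvPolynomial.X 4 ^ 2 -
      MvPolynomial.X 1 * MvPolynomial.X 3 * MvPolynomial.X 4 +
      MvPolynomial.X 2 * MvPolynomial.X 3 ^ 2) (fun _ => 1) (by simp)
  have hV := big_poly ((MvPolynomial.X 5 - MvPolynomial.X 6) *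
      (MvPolynomial.X 3 - 2 * MvPolynomial.X 6) + MvPolynomial.X 8 - MvPolynomial.X 6 ^ 2 -
      MvPolynomial.X 1 * MvPolynomial.X 6) mem0 (by
    simp only [map_add, map_sub, map_mul, map_pow, map_ofNat, MvPolynomial.eval_X, mem0_1, mem0_3,
      mem0_5, mem0_6, mem0_8]
    norm_num)
  refine (((h0.and (h2.and h02)).and (h3.and h4)).and (((h34.and h56).and (hR.and hV)).and
    (big_gh.and big_inv))).mono ?_
  rintro w ⟨⟨⟨k0, k2, k02⟩, k3, k4⟩, ⟨⟨k34, k56⟩, kR, kV⟩, kg, ki⟩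
  simp only [map_sub, MvPolynomial.eval_X] at k0 k2 k02 k3 k4 k34 k56
  simp only [map_add, map_sub, map_mul, map_pow, map_ofNat, MvPolynomial.eval_X] at kR kV
  exact ⟨k0, k2, sub_ne_zero.1 k02, k3, k4, sub_ne_zero.1 k34, sub_ne_zero.1 k56, rfl, kR, kV, kg, ki⟩

end NV

end Vale.Agent.P297.Z2
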