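import Vale.Agent.P297.H424.Z2.Iface
import Vale.Agent.P297.H940.Z2.Tan

/-!
General numerical Godeaux surfaces with torsion of order two: the conditions on the parameters hold
outside a hypersurface.
-/

set_option linter.unusedSectionVars false
set_option linter.unusedVariables false

open Polynomial

namespace Vale.Agent.P297.Z2.NV

open Vale.Agent.P297 Vale.Agent.P297.H160.Z2Irr Vale.Agent.P297.G4

/-! ### The data of a node -/

section node

variable {R : Type} [CommRing R]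

/-- the data of the node with `al = t be`, `i = 1 / D`, `it = 1 / t` -/
def tdt (w : Fin 9 → R) (t it i : R) : TD R where
  al := t * (w 0 * t ^ 2 - w 1 * t + w 2) * i
  be := (w 0 * t ^ 2 - w 1 * t + w 2) * i
  l := t * (w 3 * t - w 4) * i
  e := (1 - t) * (w 0 * t ^ 2 - w 1 * t + w 2) * i
  A := w 2 * it
  C := t * w 0
  pn := t * (w 0 * t ^ 2 - w 1 * t + w 2) * i * w 5 - t * w 0
  rn := -((w 0 * t ^ 2 - w 1 * t + w 2) * i * w 6) - w 2 * it
  kp := t * ((w 0 * t ^ 2 - w 1 * t + w 2) * i) ^ 2 *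
      (w 3 - t * (w 3 * t - w 4) * i * (w 5 + w 6)) +
    t * (w 3 * t - w 4) * i * ((1 - t) * (w 0 * t ^ 2 - w 1 * t + w 2) * i) * (w 2 * it)
  kr := t * ((w 0 * t ^ 2 - w 1 * t + w 2) * i) ^ 2 *
      (w 4 - t * (w 3 * t - w 4) * i * (w 5 + w 6)) +
    t * (w 3 * t - w 4) * i * ((1 - t) * (w 0 * t ^ 2 - w 1 * t + w 2) * i) * (t * w 0)
  w0 := -(t * ((w 0 * t ^ 2 - w 1 * t + w 2) * i) ^ 2 * (w 7 - t * (w 3 * t - w 4) * i * w 8)) +
    2 * (t * (w 3 * t - w 4) * i) * ((1 - t) * (w 0 * t ^ 2 - w 1 * t + w 2) * i) * (w 2 * it) *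
      (t * w 0) -
    t * (w 3 * t - w 4) * i * ((1 - t) * (w 0 * t ^ 2 - w 1 * t + w 2) * i) *
      (t * ((w 0 * t ^ 2 - w 1 * t + w 2) * i) ^ 2) * w 5 * w 6 -
    t * (w 3 * t - w 4) * i * (t * (w 0 * t ^ 2 - w 1 * t + w 2) * i) *
      (2 * ((w 0 * t ^ 2 - w 1 * t + w 2) * i) - t * (w 0 * t ^ 2 - w 1 * t + w 2) * i) *
      (w 2 * it) * w 5 -
    t * (w 3 * t - w 4) * i * ((w 0 * t ^ 2 - w 1 * t + w 2) * i) *
      (2 * (t * (w 0 * t ^ 2 - w 1 * t + w 2) * i) - (w 0 * t ^ 2 - w 1 * t + w 2) * i) *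
      (t * w 0) * w 6

end node

section map

variable {R S : Type} [CommRing R] [CommRing S] (σ : R →+* S)

/-- the image of the data -/
def tmap (d : TD R) : TD S where
  al := σ d.al
  be := σ d.be
  l := σ d.l
  e := σ d.e
  A := σ d.A
  C := σ d.C
  pn := σ d.pn
  rn := σ d.rn
  kp := σ d.kp
  kr := σ d.kr
  w0 := σ d.w0

theorem map_tdt (w : Fin 9 → R) (t it i : R) :
    tmap σ (tdt w t it i) = tdt (fun j => σ (w j)) (σ t) (σ it) (σ i) := by
  simp only [tmap, tdt, map_add, map_sub, map_mul, map_pow, map_neg, map_one, map_ofNat]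

theorem map_qc (d : TD R) (j : Fin 5) : (tmap σ d).qc j = σ (d.qc j) := by
  fin_cases j <;>
  simp only [TD.qc, TD.D2, TD.D1, TD.D0, TD.G0, TD.G1, TD.G2, TD.G3, TD.K10, TD.K11, TD.K12,
    TD.ze0, TD.mu0, TD.Y00, TD.Y01, TD.Y02, TD.Y10, TD.Y11, TD.h0, TD.h1, TD.Q20, TD.c, tmap,
    Fin.zero_eta, Fin.mk_one, Fin.reduceFinMk, Matrix.cons_val_zero, Matrix.cons_val_one,
    Matrix.cons_val, map_add, map_sub, map_mul, map_pow, map_neg, map_one, map_ofNat]

theorem map_qI (d : TD R) : qI (tmap σ d).qc = σ (qI d.qc) := by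
  simp only [qI, map_qc, map_add, map_sub, map_mul, map_pow, map_ofNat]

theorem map_qJ (d : TD R) : qJ (tmap σ d).qc = σ (qJ d.qc) := by
  simp only [qJ, map_qc, map_add, map_sub, map_mul, map_pow, map_ofNat]

end map

end Vale.Agent.P297.Z2.NV
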