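import Vale.Agent.P297.H521.Z2.NV

/-!
General numerical Godeaux surfaces with torsion of order two: the conditions on the parameters hold
outside a hypersurface (2): the values at the member.
-/

set_option linter.unusedSectionVars false
set_option linter.unusedVariables false

open Polynomial

namespace Vale.Agent.P297.Z2.NV

open Vale.Agent.P297 Vale.Agent.P297.H160.Z2Irr Vale.Agent.P297.G4

/-- the parameters -/
def par (w : Fin 9 → ℂ) : Par where
  P0 := w 0
  P1 := w 1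
  P2 := w 2
  Q0 := w 3
  Q1 := w 4
  u := w 5
  v := w 6
  m := w 7
  n := w 8
  M1 := 0

/-- the member -/
def mem0 : Fin 9 → ℂ := ![1, 0, -1, 1, -1, 1, -1, 0, 5]

theorem mem0_0 : mem0 0 = 1 := rfl
theorem mem0_1 : mem0 1 = 0 := rfl
theorem mem0_2 : mem0 2 = -1 := rfl
theorem mem0_3 : mem0 3 = 1 := rfl
theorem mem0_4 : mem0 4 = -1 := rfl
theorem mem0_5 : mem0 5 = 1 := rfl
theorem mem0_6 : mem0 6 = -1 := rfl
theorem mem0_7 : mem0 7 = 0 := rfl
theorem mem0_8 : mem0 8 = 5 := rfl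

theorem tdt_two : tdt mem0 2 (1 / 2) (1 / 3) =
    ⟨2, 1, 2, -1, -1 / 2, 2, 0, 3 / 2, 3, -6, 32⟩ := by
  simp only [tdt, mem0_0, mem0_1, mem0_2, mem0_3, mem0_4, mem0_5, mem0_6, mem0_7, mem0_8]
  congr 1 <;> norm_num

theorem tdt_three : tdt mem0 3 (1 / 3) (-1 / 4) =
    ⟨-6, -2, -3, 4, -1 / 3, 3, -9, -5 / 3, 16, -48, -468⟩ := by
  simp only [tdt, mem0_0, mem0_1, mem0_2, mem0_3, mem0_4, mem0_5, mem0_6, mem0_7, mem0_8]
  congr 1 <;> norm_num

theorem qc_two : (tdt mem0 2 (1 / 2) (1 / 3)).qc = ![-144, -480, 624, -48, 12] := by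
  rw [tdt_two]
  simp only [TD.qc, TD.D2, TD.D1, TD.D0, TD.G0, TD.G1, TD.G2, TD.G3, TD.K10, TD.K11, TD.K12,
    TD.ze0, TD.mu0, TD.Y00, TD.Y01, TD.Y02, TD.Y10, TD.Y11, TD.h0, TD.h1, TD.Q20, TD.c]
  norm_num

theorem qc_three : (tdt mem0 3 (1 / 3) (-1 / 4)).qc =
    ![14259456, -311040, 107424, -1008, 57] := by
  rw [tdt_three]
  simp only [TD.qc, TD.D2, TD.D1, TD.D0, TD.G0, TD.G1, TD.G2, TD.G3, TD.K10, TD.K11, TD.K12,
    TD.ze0, TD.mu0, TD.Y00, TD.Y01, TD.Y02, TD.Y10, TD.Y11, TD.h0, TD.h1, TD.Q20, TD.c]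
  norm_num

theorem qI_two : qI (tdt mem0 2 (1 / 2) (1 / 3)).qc = 299520 := by
  rw [qc_two]
  simp only [qI, Matrix.cons_val]
  norm_num

theorem qJ_two : qJ (tdt mem0 2 (1 / 2) (1 / 3)).qc = -499875840 := by
  rw [qc_two]
  simp only [qJ, Matrix.cons_val]
  norm_num

theorem qI_three : qI (tdt mem0 3 (1 / 3) (-1 / 4)).qc = 20352798720 := by
  rw [qc_three]
  simp only [qI, Matrix.cons_val]
  norm_num

theorem qJ_three : qJ (tdt mem0 3 (1 / 3) (-1 / 4)).qc = 3570253639188480 := by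
  rw [qc_three]
  simp only [qJ, Matrix.cons_val]
  norm_num

/-! ### Functions with denominators -/

section away

open MvPolynomial in
/-- A function with the denominator `D₀` that does not vanish at one point does not vanish outside
a hypersurface. -/
theorem exists_away {A : Type} [CommRing A] (D0 : A) (f : Localization.Away D0) :
    ∃ G : A, ∀ {S : Type} [CommRing S] [IsDomain S] (τ : Localization.Away D0 →+* S),
      τ (algebraMap A _ G) = 0 ↔ τ f = 0 := by
  obtain ⟨n, G, hG⟩ := IsLocalization.Away.surj D0 f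
  refine ⟨G, fun {S} _ _ τ => ?_⟩
  rw [← hG, map_mul, map_pow]
  have hu : IsUnit (τ (algebraMap A (Localization.Away D0) D0)) :=
    (IsLocalization.Away.algebraMap_isUnit D0).map τ
  constructor
  · intro h
    exact (mul_eq_zero.1 h).resolve_right (pow_ne_zero _ hu.ne_zero)
  · intro h
    rw [h, zero_mul]

end away

end Vale.Agent.P297.Z2.NV
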