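import Vale.Agent.P297.H521.Z2.NV2
import Vale.Agent.P297.H940.Z2.Inst

/-!
General numerical Godeaux surfaces with torsion of order two: the conditions on the parameters hold
outside a hypersurface (3): properties that hold outside a hypersurface.
-/

set_option linter.unusedSectionVars false
set_option linter.unusedVariables false

open Polynomial

namespace Vale.Agent.P297.Z2.NV

open Vale.Agent.P297 Vale.Agent.P297.H160.Z2Irr Vale.Agent.P297.G4

/-! ### Properties that hold outside a hypersurface -/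

/-- The property holds outside a hypersurface. -/
def Big (S : (Fin 9 → ℂ) → Prop) : Prop :=
  ∃ F : MvPolynomial (Fin 9) ℂ, F ≠ 0 ∧ ∀ w, MvPolynomial.eval w F ≠ 0 → S w

theorem Big.and {S T : (Fin 9 → ℂ) → Prop} (h1 : Big S) (h2 : Big T) :
    Big fun w => S w ∧ T w := by
  obtain ⟨F, hF, h1⟩ := h1
  obtain ⟨G, hG, h2⟩ := h2
  refine ⟨F * G, mul_ne_zero hF hG, fun w hw => ?_⟩
  rw [map_mul] at hw
  exact ⟨h1 w (left_ne_zero_of_mul hw), h2 w (right_ne_zero_of_mul hw)⟩

theorem Big.mono {S T : (Fin 9 → ℂ) → Prop} (h1 : Big S) (h : ∀ w, S w → T w) : Big T := by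
  obtain ⟨F, hF, h1⟩ := h1
  exact ⟨F, hF, fun w hw => h w (h1 w hw)⟩

theorem big_poly (F : MvPolynomial (Fin 9) ℂ) (w₀ : Fin 9 → ℂ) (h : MvPolynomial.eval w₀ F ≠ 0) :
    Big fun w => MvPolynomial.eval w F ≠ 0 :=
  ⟨F, fun h0 => h (by rw [h0, map_zero]), fun _ hw => hw⟩

/-- two families of polynomials that are coprime at one point -/
theorem big_cop (f g : (MvPolynomial (Fin 9) ℂ)[X]) {m n : ℕ} (hf : f.natDegree ≤ m)
    (hg : g.natDegree ≤ n) (hm : m ≠ 0) (w₀ : Fin 9 → ℂ)
    (hf₀ : (f.map (MvPolynomial.eval w₀)).natDegree = m)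
    (hg₀ : (g.map (MvPolynomial.eval w₀)).natDegree = n)
    (h : IsCoprime (f.map (MvPolynomial.eval w₀)) (g.map (MvPolynomial.eval w₀))) :
    Big fun w => IsCoprime (f.map (MvPolynomial.eval w)) (g.map (MvPolynomial.eval w)) := by
  refine ⟨resultant f g m n, fun h0 => ?_, fun w hw => ?_⟩
  · have h1 := resultant_ne_zero _ _ h
    rw [hf₀, hg₀, resultant_map_map, h0, map_zero] at h1
    exact h1 rfl
  · obtain ⟨p, q, -, -, e⟩ := exists_mul_add_mul_eq_C_resultant f g hf hg (Or.inl hm)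
    have e' := congrArg (Polynomial.map (MvPolynomial.eval w)) e
    rw [Polynomial.map_add, Polynomial.map_mul, Polynomial.map_mul, map_C] at e'
    refine ⟨C (MvPolynomial.eval w (resultant f g m n))⁻¹ * p.map (MvPolynomial.eval w),
      C (MvPolynomial.eval w (resultant f g m n))⁻¹ * q.map (MvPolynomial.eval w), ?_⟩
    rw [show C (MvPolynomial.eval w (resultant f g m n))⁻¹ * p.map (MvPolynomial.eval w) *
      f.map (MvPolynomial.eval w) + C (MvPolynomial.eval w (resultant f g m n))⁻¹ *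
      q.map (MvPolynomial.eval w) * g.map (MvPolynomial.eval w) =
      C (MvPolynomial.eval w (resultant f g m n))⁻¹ *
      (f.map (MvPolynomial.eval w) * p.map (MvPolynomial.eval w) +
        g.map (MvPolynomial.eval w) * q.map (MvPolynomial.eval w)) by ring, e', ← C_mul,
      inv_mul_cancel₀ hw, C_1]

/-! ### The two sextics -/

section dat

variable {R S : Type} [CommRing R] [CommRing S] (σ : R →+* S)

/-- the letters over `y` -/
def datw (w : Fin 9 → R) (y : R) : Dat R where
  U := y + w 5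
  V := y + w 6
  a := 2 * y + w 3
  c := 2 * y + w 4
  e := w 8 - y ^ 2 + w 1 * y
  m := w 7 - y ^ 2
  A := w 0
  B := w 2

theorem map_datw_g (w : Fin 9 → R) (y : R) :
    σ (datw w y).g = (datw (fun j => σ (w j)) (σ y)).g := by
  simp only [Dat.g, datw, map_add, map_sub, map_mul, map_pow]

theorem map_datw_h (w : Fin 9 → R) (y : R) :
    σ ((datw w y).h 0) = (datw (fun j => σ (w j)) (σ y)).h 0 := by
  simp only [Dat.h, Dat.g, datw, map_add, map_sub, map_mul, map_pow, map_zero, map_ofNat]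

end dat

theorem dat_par (w : Fin 9 → ℂ) (z : ℂ) : dat (par w) z = datw w z := by
  unfold dat datw par H160.Z2Irr.fU H160.Z2Irr.fV H160.Z2Irr.fa H160.Z2Irr.fc H160.Z2Irr.fe
    H160.Z2Irr.fm
  simp only [Algebra.algebraMap_self, RingHom.id_apply, zero_mul, add_zero]

/-- the polynomials over the ring of parameters -/
noncomputable def gA : (MvPolynomial (Fin 9) ℂ)[X] :=
  (datw (fun j => (C (MvPolynomial.X j : MvPolynomial (Fin 9) ℂ) : (MvPolynomial (Fin 9) ℂ)[X])) X).g

noncomputable def hA : (MvPolynomial (Fin 9) ℂ)[X] :=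
  (datw (fun j => (C (MvPolynomial.X j : MvPolynomial (Fin 9) ℂ) : (MvPolynomial (Fin 9) ℂ)[X])) X).h 0

theorem map_gA (w : Fin 9 → ℂ) :
    gA.map (MvPolynomial.eval w) = (datw (fun j => C (w j)) X).g := by
  have h := map_datw_g (mapRingHom (MvPolynomial.eval w)) (fun j => C (MvPolynomial.X j)) X
  simp only [coe_mapRingHom, map_C, map_X, MvPolynomial.eval_X] at h
  exact h

theorem map_hA (w : Fin 9 → ℂ) :
    hA.map (MvPolynomial.eval w) = (datw (fun j => C (w j)) X).h 0 := by
  have h := map_datw_h (mapRingHom (MvPolynomial.eval w)) (fun j => C (MvPolynomial.X j)) X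
  simp only [coe_mapRingHom, map_C, map_X, MvPolynomial.eval_X] at h
  exact h

theorem g_natDegree {R : Type} [CommRing R] (w : Fin 9 → R) :
    (datw (fun j => (C (w j) : R[X])) X).g.natDegree ≤ 4 := by
  have h : (datw (fun j => (C (w j) : R[X])) X).g = (X + C (w 5)) * (X + C (w 6)) *
      (-X ^ 2 + C (w 1) * X + C (w 8)) + C (w 0) * (X + C (w 6)) ^ 3 +
      C (w 2) * (X + C (w 5)) ^ 3 := by
    unfold Dat.g datw
    ring
  have he : (-X ^ 2 + C (w 1) * X + C (w 8) : R[X]).natDegree ≤ 2 := by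
    compute_degree
  rw [h]
  compute_degree

theorem h_natDegree {R : Type} [CommRing R] (w : Fin 9 → R) :
    ((datw (fun j => (C (w j) : R[X])) X).h 0).natDegree ≤ 6 := by
  have h : (datw (fun j => (C (w j) : R[X])) X).h 0 =
      (C (w 2) * (X + C (w 5)) ^ 2 + C (w 0) * (X + C (w 6)) ^ 2) ^ 2 -
      (C 2 * X + C (w 3)) * C (w 2) * (X + C (w 5)) ^ 3 * (X + C (w 6)) -
      (C 2 * X + C (w 4)) * C (w 0) * (X + C (w 6)) ^ 3 * (X + C (w 5)) -
      (C (w 7) - X ^ 2) * (X + C (w 5)) ^ 2 * (X + C (w 6)) ^ 2 := by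
    unfold Dat.h datw
    simp only [map_ofNat]
    ring
  rw [h]
  compute_degree

theorem gA_natDegree : gA.natDegree ≤ 4 := g_natDegree _

theorem hA_natDegree : hA.natDegree ≤ 6 := h_natDegree _

theorem gA_mem0 : gA.map (MvPolynomial.eval mem0) = -(X ^ 4 + C 7) := by
  rw [map_gA]
  simp only [Dat.g, datw, mem0_0, mem0_1, mem0_2, mem0_3, mem0_4, mem0_5, mem0_6, mem0_7, mem0_8,
    map_one, map_neg, map_zero, map_ofNat]
  ring

theorem hA_mem0 : hA.map (MvPolynomial.eval mem0) = X ^ 6 + C 8 * X ^ 4 + C 9 * X ^ 2 - C 2 := by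
  rw [map_hA]
  simp only [Dat.h, Dat.g, datw, mem0_0, mem0_1, mem0_2, mem0_3, mem0_4, mem0_5, mem0_6, mem0_7,
    mem0_8, map_one, map_neg, map_zero, map_ofNat]
  ring

theorem big_gh : Big fun w => ∀ z : ℂ, (dat (par w) z).h 0 = 0 → (dat (par w) z).g ≠ 0 := by
  have h := big_cop gA hA gA_natDegree hA_natDegree (by norm_num) mem0 (by
    rw [gA_mem0]
    compute_degree!) (by
    rw [hA_mem0]
    compute_degree!) (by
    rw [gA_mem0, hA_mem0]
    refine ⟨C (1 / 3392) * (-4 - (X ^ 2 + 8) * (2 * X ^ 2 + 58)),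
      C (1 / 3392) * (-(2 * X ^ 2 + 58)), ?_⟩
    have e : (C (1 / 3392) * C 3392 : ℂ[X]) = 1 := by
      rw [← C_mul]
      norm_num
    rw [← e]
    simp only [map_ofNat]
    ring)
  refine h.mono fun w hw z h0 h1 => ?_
  obtain ⟨a, b, hab⟩ := hw
  have h2 := congrArg (Polynomial.eval z) hab
  rw [map_gA, map_hA, eval_add, eval_mul, eval_mul, eval_one] at h2
  have e1 : eval z (datw (fun j => C (w j)) X).g = (dat (par w) z).g := by
    have := map_datw_g (evalRingHom z) (fun j => C (w j)) X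
    simp only [coe_evalRingHom, eval_C, eval_X] at this
    rw [this, dat_par]
  have e2 : eval z ((datw (fun j => C (w j)) X).h 0) = (dat (par w) z).h 0 := by
    have := map_datw_h (evalRingHom z) (fun j => C (w j)) X
    simp only [coe_evalRingHom, eval_C, eval_X] at this
    rw [this, dat_par]
  rw [e1, e2, h0, h1, mul_zero, mul_zero, add_zero] at h2
  exact zero_ne_one h2

end Vale.Agent.P297.Z2.NV
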